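import Vale.Agent.P011.H704.C2.Main
import Vale.Agent.P011.H961.C2Spec

/-!
Function fields of characteristic two: the quaternion subalgebras, in the unital letters.
-/

open Module
open scoped commutatorElement

set_option linter.unusedSectionVars false

namespace Vale.Agent.P011.H704.C2

open Vale.Agent.P011.H738 Vale.Agent.P011.H271 Vale.Agent.P011.H698
open Vale.Agent.P011.H477.C2 (nf)
open Vale.Agent.P011.H706.C2
open Vale.Agent.P011.H961.C2

section conv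

variable {k A : Type} [Field k] [Ring A] [StarRing A] [Algebra k A] {N : ℕ}
  {B : Basis (Fin N) k A} {Q : Set A} {T : Finset (Place k)} {ε : ℝ}

/-- The unital letters. -/
theorem hq1F2_of (h : HQN B Q T ε) : HQ1F2 k B T ε Q := by
  intro F _ _ _ ι α β i j p₀ p₁ p₂ p₃ u hu hloc hnear
  have hι : ∀ x, ((ι : F →ₙₐ[k] A)) x = ι x := fun x => rfl
  refine h F (ι : F →ₙₐ[k] A) α β i j p₀ p₁ p₂ p₃ u ⟨⟨?_, ?_, ?_, ?_, ?_, ?_, ?_, ?_, ?_, ?_, ?_⟩,
    hu.nrm, ?_⟩ hnear hloc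
  · intro x
    rw [hι, hu.fr.sym]
  · rw [hι, map_one, hu.fr.si]
  · exact hu.fr.sj
  · exact hu.fr.ii
  · exact hu.fr.jj
  · exact hu.fr.b0
  · rw [hι, map_one, hu.fr.ji]
  · rw [hι, map_one, one_mul]
  · rw [hι, map_one, one_mul]
  · intro x
    rw [hι, hu.fr.ci]
  · intro x
    rw [hι, hu.fr.cj]
  · simp only [hι, map_one, sub_self, zero_add]
    exact hu.eq

end conv

section conv2

variable {k A : Type} [Field k] [DivisionRing A] [StarRing A] [Algebra k A] {N : ℕ}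
  {B : Basis (Fin N) k A} {Q : Set A} {T : Finset (Place k)} {ε : ℝ}

theorem hq2_of (h : HQN B Q T ε) : HQ2 B Q T ε := by
  intro F _ _ _ ι δ β i j p₀ p₁ p₂ p₃ u hu hnear hloc
  have hι : ∀ x, ((ι : F →ₙₐ[k] A)) x = ι x := fun x => rfl
  refine h F (ι : F →ₙₐ[k] A) δ β i j p₀ p₁ p₂ p₃ u ⟨⟨?_, ?_, ?_, ?_, ?_, ?_, ?_, ?_, ?_, ?_, ?_⟩,
    hu.nrm, ?_⟩ hnear hloc
  · intro x
    rw [hι, hu.fr.sym]
  · rw [hι, map_one, hu.fr.si]
  · exact hu.fr.sj
  · exact hu.fr.ii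
  · exact hu.fr.jj
  · exact hu.fr.b0
  · rw [hι, map_one, hu.fr.ji]
  · rw [hι, map_one, one_mul]
  · rw [hι, map_one, one_mul]
  · intro x
    rw [hι, hu.fr.ci]
  · intro x
    rw [hι, hu.fr.cj]
  · simp only [hι, map_one, sub_self, zero_add]
    rw [hu.eq, add_mul, mul_assoc]
    abel

end conv2

section final

variable {k K A Ω : Type} [Field k] [Field K] [StarRing K] [Ring A] [StarRing A]
  [Algebra k K] [Algebra k A] [Algebra K A] [IsScalarTower k K A] [StarModule K A] {n N : ℕ}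
  [Field Ω] [Algebra K Ω]

/-- **Function fields of characteristic two: the property `HQ1`.** -/
theorem hq1F2 [GFF k] (hA : Anis k K A n) (hn : n ≠ 0) (h2 : (2 : k) = 0)
    (f : A →ₐ[K] Matrix (Fin n) (Fin n) Ω) (B : Basis (Fin N) k A)
    (Q H : Subgroup (SUA f)) [hQ : Q.Normal] (hc : ∀ g : SUA f, ∀ x ∈ H, ⁅g, x⁆ ∈ Q)
    (hH : NearA k K f B H) :
    ∃ T : Finset (Place k), (∀ v ∈ T, v ∈ Adiv k K A) ∧ ∃ ε : ℝ, 0 < ε ∧
      HQ1F2 k B T ε {x | ∃ g ∈ Q, ((g : Aˣ) : A) = x} := by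
  obtain ⟨T, hT, ε, hε, h⟩ := hqN hA hn h2 f B Q H hc hH
  exact ⟨T, hT, ε, hε, hq1F2_of h⟩

end final

end Vale.Agent.P011.H704.C2
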