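import Vale.Agent.P011.H704.C2.Nu
import Vale.Agent.P011.H704.HQ.Main
import Vale.Agent.P011.H706.C2.Main

/-!
Function fields of characteristic two: a normal subgroup of the special unitary group of rank one
which contains the commutators with the elements close to one at places of division type contains
the elements of norm one of the quaternion algebras in the corners which are close to one at the
ramified places and at the places of division type.
-/

open Module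
open scoped commutatorElement

set_option linter.unusedSectionVars false

namespace Vale.Agent.P011.H704.C2

open Vale.Agent.P011.H738 Vale.Agent.P011.H271 Vale.Agent.P011.H698
open Vale.Agent.P011.H477.C2 (nf)
open Vale.Agent.P011.H706.C2
open Vale.Agent.P011.H961.C2

section ring

variable {k K A Ω : Type} [Field k] [Field K] [StarRing K] [Ring A] [StarRing A]
  [Algebra k K] [Algebra k A] [Algebra K A] [IsScalarTower k K A] [StarModule K A] {n N : ℕ}
  [Field Ω] [Algebra K Ω]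
  {F : Type} [Field F] [Algebra k F] {ι : F →ₙₐ[k] A} {δ β : F} {i j : A}

theorem two_of (h2 : (2 : k) = 0) : (2 : F) = 0 := by
  rw [← map_ofNat (algebraMap k F) 2, h2, map_zero]

/-- The homomorphism of the norm-one group. -/
theorem exists_Phi (h2 : (2 : F) = 0) (h : QFrN ι δ β i j) (hA : Ani δ β)
    (f : A →ₐ[K] Matrix (Fin n) (Fin n) Ω) :
    ∃ Φ : SL δ β →* SUA f, ∀ x : SL δ β,
      (((Φ x : SUA f) : Aˣ) : A) = psi h2 h ((x : (Q2 δ β)ˣ) : Q2 δ β) := by
  let Φ0 : SL δ β →* Aˣ := (Units.map (psi h2 h)).comp (SL δ β).subtype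
  have hmem : ∀ x : SL δ β, Φ0 x ∈ SUA f := by
    intro x
    have hx : nr ((x : (Q2 δ β)ˣ) : Q2 δ β) = 1 := x.2
    refine ⟨psi_mul_star h2 h hx, ?_⟩
    let m : A →* Ω := (Matrix.detMonoidHom : Matrix (Fin n) (Fin n) Ω →* Ω).comp
      (f : A →* Matrix (Fin n) (Fin n) Ω)
    exact map_eq_one h2 hA (m.comp (psi h2 h)) hx
  exact ⟨Φ0.codRestrict (SUA f) hmem, fun x => rfl⟩

theorem eq_psi (h2 : (2 : F) = 0) {p₀ p₁ p₂ p₃ : F} {u : A}
    (h : QEltN ι δ β i j p₀ p₁ p₂ p₃ u) : u = psi h2 h.fr ⟨p₀, p₁, p₂, p₃⟩ := by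
  rw [psi_apply, emb_eq, h.eq]

theorem nr_of_elt (h2 : (2 : F) = 0) {p₀ p₁ p₂ p₃ : F} {u : A}
    (h : QEltN ι δ β i j p₀ p₁ p₂ p₃ u) : nr (⟨p₀, p₁, p₂, p₃⟩ : Q2 δ β) = 1 := by
  have h3 := h.nrm
  simp only [nr, nf]
  linear_combination h3 - β * (p₂ ^ 2 + p₂ * p₃ + δ * p₃ ^ 2) * h2

theorem eq_one_of {p₀ p₁ p₂ p₃ : F} {u : A}
    (h : QEltN ι δ β i j p₀ p₁ p₂ p₃ u) (h1 : ι 1 = 0) : u = 1 := by
  have h3 : ∀ x, ι x = 0 := fun x => by rw [← mul_one x, map_mul, h1, mul_zero]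
  rw [h.eq]
  simp [h3]

/-- The elements of the corners in a normal subgroup which contains all commutators. -/
theorem hqN_empty [GFF k] (hA : Anis k K A n) (h2 : (2 : k) = 0)
    (f : A →ₐ[K] Matrix (Fin n) (Fin n) Ω) (B : Basis (Fin N) k A)
    (Q : Subgroup (SUA f)) [hQ : Q.Normal] (hc : ∀ g x : SUA f, ⁅g, x⁆ ∈ Q) (ε : ℝ) :
    HQN B {x | ∃ g ∈ Q, ((g : Aˣ) : A) = x} ∅ ε := by
  intro F _ _ _ ι δ β i j p₀ p₁ p₂ p₃ u hu _ hloc
  have h2F : (2 : F) = 0 := two_of h2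
  by_cases h1 : ι 1 = 0
  · exact ⟨1, Q.one_mem, by rw [eq_one_of hu h1]; rfl⟩
  have hAn : Ani δ β := ani h2F hu.fr h1 hA.anisotropic
  obtain ⟨Φ, hΦ⟩ := exists_Phi (K := K) h2F hu.fr hAn f
  have hnrm := nr_of_elt h2F hu
  let g : SL δ β := ⟨unitOf ⟨p₀, p₁, p₂, p₃⟩ (by rw [hnrm]; exact one_ne_zero), hnrm⟩
  have hg : ((g : (Q2 δ β)ˣ) : Q2 δ β) = ⟨p₀, p₁, p₂, p₃⟩ := rfl
  have hfin := mp_lev h2F hAn (T := ∅) (m := 1) (fun w hw => absurd hw (Finset.notMem_empty w))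
    one_ne_zero (Q.comap Φ) (fun x z _ => by
      rw [Subgroup.mem_comap, map_commutatorElement]
      exact hc _ _) g (by
      intro w hw
      have h3 : tr (⟨p₀, p₁, p₂, p₃⟩ : Q2 δ β) = p₁ := by
        simp only [tr]
        linear_combination p₀ * h2F
      rw [hg, h3]
      exact hloc w hw) (fun w hw => absurd hw (Finset.notMem_empty w))
  exact ⟨Φ g, hfin, by rw [hΦ, hg, ← eq_psi h2F hu]⟩

end ring

section main

variable {k K D Ω : Type} [Field k] [Field K] [StarRing K] [DivisionRing D] [StarRing D]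
  [Algebra k K] [Algebra k D] [Algebra K D] [IsScalarTower k K D] [StarModule K D] {n N : ℕ}
  [Field Ω] [Algebra K Ω]

/-- Division rings. -/
theorem hqN_div [GFF k] (hA : Anis k K D n) (hn : n ≠ 0) (h2 : (2 : k) = 0)
    (f : D →ₐ[K] Matrix (Fin n) (Fin n) Ω) (B : Basis (Fin N) k D)
    (Q H : Subgroup (SUA f)) [hQ : Q.Normal] (hc : ∀ g : SUA f, ∀ x ∈ H, ⁅g, x⁆ ∈ Q)
    (hH : NearA k K f B H) :
    ∃ T : Finset (Place k), (∀ v ∈ T, v ∈ Adiv k K D) ∧ ∃ ε : ℝ, 0 < ε ∧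
      HQN B {x | ∃ g ∈ Q, ((g : Dˣ) : D) = x} T ε := by
  classical
  obtain ⟨T, hT, ε0, hε0, hH⟩ := hH
  choose ν hν using fun v : T => HQ.exists_dnu hA hn f B (hT v v.2)
  choose C hC hCb using fun v => (hν v).coord
  choose C' hC' hCb' using fun v => (hν v).upper
  -- the scalar which defines the levels
  obtain ⟨m, hm0, hm⟩ := HQ.exists_small_scalar T
    (fun v => if hv : v ∈ T then min 1 (ε0 / (2 * C ⟨v, hv⟩)) else 1) (fun v => by
      split_ifs with hv
      · have := hC ⟨v, hv⟩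
        exact lt_min one_pos (by positivity)
      · exact one_pos)
  have hm1 : ∀ v : T, (v : Place k).abv m < 1 := fun v => by
    have h1 := hm v v.2
    rw [dif_pos v.2] at h1
    exact h1.trans_le (min_le_left _ _)
  have hmC : ∀ v : T, 2 * C v * (v : Place k).abv m < ε0 := fun v => by
    have h1 := hm v v.2
    rw [dif_pos v.2] at h1
    have h3 := h1.trans_le (min_le_right _ _)
    have h4 := hC v
    rw [lt_div_iff₀ (by positivity)] at h3
    linarith
  have hmpos : ∀ v : T, 0 < (v : Place k).abv m := fun v => (v : Place k).abv.pos hm0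
  obtain ⟨ε, hε, hεle⟩ := exists_pos_le (fun v : T => (v : Place k).abv m / (C' v + 1))
    fun v => by
      have := hC' v
      have := hmpos v
      positivity
  have hεC : ∀ v : T, C' v * ε < (v : Place k).abv m := fun v => by
    have h1 := hεle v
    have h3 := hC' v
    have h4 := hmpos v
    rw [le_div_iff₀ (by linarith)] at h1
    nlinarith
  refine ⟨T, hT, ε, hε, ?_⟩
  intro F _ _ _ ι δ β i j p₀ p₁ p₂ p₃ u hu hnear hloc
  have h2F : (2 : F) = 0 := two_of h2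
  by_cases h1 : ι 1 = 0
  · exact ⟨1, Q.one_mem, by rw [eq_one_of hu h1]; rfl⟩
  have hι1 : ι 1 = 1 := by
    have h3 : ι 1 * ι 1 = ι 1 := by rw [← map_mul, mul_one]
    exact mul_left_cancel₀ h1 (by rw [h3, mul_one])
  have hAn : Ani δ β := ani h2F hu.fr h1 hA.anisotropic
  obtain ⟨Φ, hΦ⟩ := exists_Phi (K := K) h2F hu.fr hAn f
  let ι' : F →ₐ[k] D := AlgHom.ofLinearMap
    { toFun := ι, map_add' := map_add ι, map_smul' := fun c x => map_smul ι c x } hι1
    (fun x y => map_mul ι x y)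
  have hι' : ∀ x, ι' x = ι x := fun x => rfl
  have hνk : ∀ (v : T) (c : k), ν v (ι (algebraMap k F c)) = (v : Place k).abv c := by
    intro v c
    rw [← hι', AlgHom.commutes]
    exact (hν v).alg c
  -- the places of the center
  have hpl : ∀ v : T, ∃ ω : Place F, ∀ x y : F, ω.abv x ≤ ω.abv y ↔ ν v (ι x) ≤ ν v (ι y) := by
    intro v
    refine HQ.exists_place (ν v) (hν v).ultra ι' ⟨algebraMap k F m⁻¹, ?_⟩
    rw [hι', hνk, map_inv₀]
    exact (one_lt_inv₀ (hmpos v)).mpr (hm1 v)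
  choose ω hω using hpl
  have hωlt : ∀ (v : T) (x y : F), (ω v).abv x < (ω v).abv y ↔ ν v (ι x) < ν v (ι y) := by
    intro v x y
    rw [← not_le, ← not_le, hω]
  let T0 : Finset (Place F) := T.attach.image ω
  have hT0 : ∀ w ∈ T0, ∃ v : T, ω v = w := by
    intro w hw
    obtain ⟨v, -, hv⟩ := Finset.mem_image.mp hw
    exact ⟨v, hv⟩
  have hpow : ∀ (v : T) (c : F), ν v (ι (c ^ 2)) = ν v (ι c) ^ 2 := by
    intro v c
    rw [sq c, map_mul, map_mul, sq]
  have hpsi : ∀ q : Q2 δ β, psi h2F hu.fr q = emb ι i j q := by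
    intro q
    rw [psi_apply, hι1, sub_self, zero_add]
  have hsub : ∀ q : Q2 δ β, emb ι i j q - 1 = emb ι i j (q - 1) := by
    intro q
    rw [emb_sub, emb_one, hι1]
  have htr : ∀ q : Q2 δ β, nr q = 1 → tr q = nr (q - 1) := by
    intro q hq
    rw [nr_sub_one hq]
    linear_combination (tr q - 1) * h2F
  -- the elements of the level of `m`
  have hlev : ∀ z : SL δ β, (∀ w ∈ T0, w.abv (tr ((z : (Q2 δ β)ˣ) : Q2 δ β)) ≤
      w.abv (algebraMap k F m ^ 2)) → Φ z ∈ H := by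
    intro z hz
    refine hH _ fun v hv l => ?_
    let v' : T := ⟨v, hv⟩
    have hz1 : nr ((z : (Q2 δ β)ˣ) : Q2 δ β) = 1 := z.2
    have h3 := hCb v' (emb ι i j (((z : (Q2 δ β)ˣ) : Q2 δ β) - 1)) l
    have h4 : ν v' (star (emb ι i j (((z : (Q2 δ β)ˣ) : Q2 δ β) - 1))) =
        ν v' (emb ι i j (((z : (Q2 δ β)ˣ) : Q2 δ β) - 1)) := by
      rw [star_emb h2F hu.fr, nu_cj (ν v') h2F hu.fr h1]
    have h5 := hz (ω v') (Finset.mem_image_of_mem _ (Finset.mem_attach _ v'))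
    rw [htr _ hz1, hω, ← nu_sq (ν v') h2F hu.fr h1, hpow, hνk] at h5
    have h6 : ν v' (emb ι i j (((z : (Q2 δ β)ˣ) : Q2 δ β) - 1)) ≤ v.abv m :=
      (pow_le_pow_iff_left₀ ((ν v').nonneg _) (v.abv.nonneg _) two_ne_zero).mp h5
    rw [hΦ, hpsi, hsub]
    refine h3.trans_lt ?_
    rw [h4]
    have h7 := hmC v'
    have h8 := hC v'
    calc C v' * (ν v' (emb ι i j (((z : (Q2 δ β)ˣ) : Q2 δ β) - 1)) +
          ν v' (emb ι i j (((z : (Q2 δ β)ˣ) : Q2 δ β) - 1))) ≤ C v' * (v.abv m + v.abv m) :=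
          mul_le_mul_of_nonneg_left (add_le_add h6 h6) h8.le
      _ = 2 * C v' * (v' : Place k).abv m := by ring
      _ < ε0 := h7
  -- the element
  have hnrm := nr_of_elt h2F hu
  let g : SL δ β := ⟨unitOf ⟨p₀, p₁, p₂, p₃⟩ (by rw [hnrm]; exact one_ne_zero), hnrm⟩
  have hg : ((g : (Q2 δ β)ˣ) : Q2 δ β) = ⟨p₀, p₁, p₂, p₃⟩ := rfl
  have hu' : u = emb ι i j (⟨p₀, p₁, p₂, p₃⟩ : Q2 δ β) := by
    rw [← hpsi, ← eq_psi h2F hu]
  have hfin := mp_lev h2F hAn (T := T0) (m := algebraMap k F m ^ 2) (by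
      intro w hw
      obtain ⟨v, rfl⟩ := hT0 w hw
      exact ram_of (ν v) (hν v).ultra h2F hu.fr h1 (hω v))
    (pow_ne_zero 2 ((map_ne_zero _).mpr hm0)) (Q.comap Φ) (by
      intro x z hz
      rw [Subgroup.mem_comap, map_commutatorElement]
      exact hc _ _ (hlev z hz)) g (by
      intro w hw
      have h3 : tr (⟨p₀, p₁, p₂, p₃⟩ : Q2 δ β) = p₁ := by
        simp only [tr]
        linear_combination p₀ * h2F
      rw [hg, h3]
      exact hloc w hw) (by
      intro w hw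
      obtain ⟨v, rfl⟩ := hT0 w hw
      rw [hg, htr _ hnrm, hωlt, ← nu_sq (ν v) h2F hu.fr h1, hpow, hνk, ← hsub, ← hu']
      have h3 := (hCb' v (u - 1) ε hε fun l => hnear v v.2 l).trans_lt (hεC v)
      exact pow_lt_pow_left₀ h3 ((ν v).nonneg _) two_ne_zero)
  exact ⟨Φ g, hfin, by rw [hΦ, hg, ← eq_psi h2F hu]⟩

end main

section final

variable {k K A Ω : Type} [Field k] [Field K] [StarRing K] [Ring A] [StarRing A]
  [Algebra k K] [Algebra k A] [Algebra K A] [IsScalarTower k K A] [StarModule K A] {n N : ℕ}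
  [Field Ω] [Algebra K Ω]

/-- **Function fields of characteristic two: the quaternion algebras in the corners.** -/
theorem hqN [GFF k] (hA : Anis k K A n) (hn : n ≠ 0) (h2 : (2 : k) = 0)
    (f : A →ₐ[K] Matrix (Fin n) (Fin n) Ω) (B : Basis (Fin N) k A)
    (Q H : Subgroup (SUA f)) [hQ : Q.Normal] (hc : ∀ g : SUA f, ∀ x ∈ H, ⁅g, x⁆ ∈ Q)
    (hH : NearA k K f B H) :
    ∃ T : Finset (Place k), (∀ v ∈ T, v ∈ Adiv k K A) ∧ ∃ ε : ℝ, 0 < ε ∧
      HQN B {x | ∃ g ∈ Q, ((g : Aˣ) : A) = x} T ε := by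
  obtain ⟨T, hT, ε0, hε0, hH'⟩ := id hH
  rcases T.eq_empty_or_nonempty with rfl | ⟨v0, hv0⟩
  · refine ⟨∅, hT, 1, one_pos, hqN_empty hA h2 f B Q (fun g x => hc g x ?_) 1⟩
    exact hH' x fun v hv => absurd hv (Finset.notMem_empty v)
  · have hu := isUnit_of_mem_Adiv hA hn (hT v0 hv0)
    have hnt : Nontrivial A := by
      have := hA.simple
      infer_instance
    exact @hqN_div k K A Ω _ _ _ (DivisionRing.ofIsUnitOrEqZero hu) _ _ _ _ _ _ n N _ _ _ hA hn h2
      f B Q H hQ hc hH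

end final

end Vale.Agent.P011.H704.C2
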