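import Vale.Agent.P011.H704.C2.Quat
import Vale.Agent.P011.H704.HQ.Nu
import Vale.Agent.P011.H974.R6Near

/-!
Characteristic two: absolute values of a division algebra and its quaternion subalgebras.
-/

set_option linter.unusedSectionVars false

namespace Vale.Agent.P011.H704.C2

open Vale.Agent.P011.H738 Vale.Agent.P011.H271
open Vale.Agent.P011.H477.C2 (nf)
open Vale.Agent.P011.H706.C2
open Vale.Agent.P011.H961.C2

section nu

variable {k D : Type} [Field k] [DivisionRing D] [StarRing D] [Algebra k D]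
  {F : Type} [Field F] [Algebra k F] {ι : F →ₙₐ[k] D} {δ β : F} {i j : D}

variable (ν : AbsoluteValue D ℝ)

theorem nu_cj (h2 : (2 : F) = 0) (h : QFrN ι δ β i j) (h1 : ι 1 ≠ 0) (q : Q2 δ β) :
    ν (emb ι i j (cj q)) = ν (emb ι i j q) := by
  obtain ⟨t, ht, h4⟩ := exists_conj_cj h2 q
  have h3 : emb ι i j t ≠ 0 := fun h3 => ht (emb_inj h2 h h1 h3)
  have h5 := congrArg (fun x => ν (emb ι i j x)) h4
  simp only [emb_mul h2 h, map_mul] at h5
  have h6 : ν (emb ι i j t) ≠ 0 := (ν.ne_zero_iff).mpr h3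
  rw [mul_comm] at h5
  exact (mul_right_cancel₀ h6 h5).symm

theorem nu_sq (h2 : (2 : F) = 0) (h : QFrN ι δ β i j) (h1 : ι 1 ≠ 0) (q : Q2 δ β) :
    ν (emb ι i j q) ^ 2 = ν (ι (nr q)) := by
  rw [← emb_alg (i := i) (j := j) (δ := δ) (β := β), ← cj_mul, emb_mul h2 h, map_mul,
    nu_cj ν h2 h h1, sq]

theorem nu_tr (hu : ∀ x y, ν (x + y) ≤ max (ν x) (ν y)) (h2 : (2 : F) = 0)
    (h : QFrN ι δ β i j) (h1 : ι 1 ≠ 0) (q : Q2 δ β) :
    ν (ι (tr q)) ≤ ν (emb ι i j q) := by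
  rw [← emb_alg (i := i) (j := j) (δ := δ) (β := β), ← add_cj, emb_add]
  refine (hu _ _).trans ?_
  rw [nu_cj ν h2 h h1, max_self]

/-- An absolute value of the division algebra which extends the place of the center of a
quaternion subalgebra forces ramification. -/
theorem ram_of [GFF F] (hu : ∀ x y, ν (x + y) ≤ max (ν x) (ν y)) (h2 : (2 : F) = 0)
    (h : QFrN ι δ β i j) (h1 : ι 1 ≠ 0) {ω : Place F}
    (hω : ∀ x y : F, ω.abv x ≤ ω.abv y ↔ ν (ι x) ≤ ν (ι y)) : Ram δ β ω := by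
  rintro ⟨x0, y0, h0⟩
  have hpow : ∀ c : F, ν (ι c) ^ 2 = ν (ι (c ^ 2)) := by
    intro c
    rw [sq c, map_mul, map_mul, sq]
  have key : ∀ q : Q2 δ β, ω.abv (tr q) ^ 2 ≤ ω.abv (nr q) := by
    intro q
    have h3 := nu_tr ν hu h2 h h1 q
    have h4 := nu_sq ν h2 h h1 q
    rw [← map_pow, hω, ← hpow, ← h4]
    exact pow_le_pow_left₀ (ν.nonneg _) h3 2
  have e1 : ∀ x y : F, ω.abv y ^ 2 ≤ ω.abv (x ^ 2 + x * y + δ * y ^ 2 - β) := by
    intro x y
    have h5 : nr (⟨x, y, 1, 0⟩ : Q2 δ β) = x ^ 2 + x * y + δ * y ^ 2 - β := by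
      simp only [nr, nf]
      ring
    have h6 : tr (⟨x, y, 1, 0⟩ : Q2 δ β) = y := by
      simp only [tr]
      linear_combination x * h2
    have := key ⟨x, y, 1, 0⟩
    rwa [h5, h6] at this
  have e2 : ∀ x y : F, ω.abv (x + y) ^ 2 ≤ ω.abv (δ * (x ^ 2 + x * y + δ * y ^ 2 - β)) := by
    intro x y
    have h5 : nr ((⟨x, y, 1, 0⟩ : Q2 δ β) * ⟨0, 1, 0, 0⟩) =
        δ * (x ^ 2 + x * y + δ * y ^ 2 - β) := by
      rw [nr_mul]
      simp only [nr, nf]
      ring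
    have h6 : tr ((⟨x, y, 1, 0⟩ : Q2 δ β) * ⟨0, 1, 0, 0⟩) = x + y := by
      simp only [tr, QuaternionAlgebra.re_mul, QuaternionAlgebra.imI_mul]
      linear_combination (-(δ * y)) * h2
    have := key (⟨x, y, 1, 0⟩ * ⟨0, 1, 0, 0⟩)
    rwa [h5, h6] at this
  have hd : DenseRange (algebraMap F ω.comp) := by
    rw [Metric.denseRange_iff]
    intro x r hr
    obtain ⟨a, ha⟩ := dense_alg ω x hr
    refine ⟨a, ?_⟩
    rw [dist_eq_norm]
    exact ha
  have f1 : ∀ X Y : ω.comp, ‖Y‖ ^ 2 ≤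
      ‖X ^ 2 + X * Y + algebraMap F ω.comp δ * Y ^ 2 - algebraMap F ω.comp β‖ := by
    intro X Y
    refine DenseRange.induction_on₂ (p := fun X Y : ω.comp => ‖Y‖ ^ 2 ≤
      ‖X ^ 2 + X * Y + algebraMap F ω.comp δ * Y ^ 2 - algebraMap F ω.comp β‖) hd
      (isClosed_le (by fun_prop) (by fun_prop)) ?_ X Y
    intro x y
    have h5 := e1 x y
    rw [← norm_alg, ← norm_alg] at h5
    simpa only [map_mul, map_sub, map_add, map_pow] using h5
  have f2 : ∀ X Y : ω.comp, ‖X + Y‖ ^ 2 ≤ ‖algebraMap F ω.comp δ *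
        (X ^ 2 + X * Y + algebraMap F ω.comp δ * Y ^ 2 - algebraMap F ω.comp β)‖ := by
    intro X Y
    refine DenseRange.induction_on₂ (p := fun X Y : ω.comp =>
      ‖X + Y‖ ^ 2 ≤ ‖algebraMap F ω.comp δ *
        (X ^ 2 + X * Y + algebraMap F ω.comp δ * Y ^ 2 - algebraMap F ω.comp β)‖) hd
      (isClosed_le (by fun_prop) (by fun_prop)) ?_ X Y
    intro x y
    have h5 := e2 x y
    rw [← norm_alg, ← norm_alg] at h5
    simpa only [map_mul, map_sub, map_add, map_pow] using h5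
  have g0 : x0 ^ 2 + x0 * y0 + algebraMap F ω.comp δ * y0 ^ 2 - algebraMap F ω.comp β = 0 := by
    rw [← h0]
    simp only [nf]
    ring
  have hβ : algebraMap F ω.comp β ≠ 0 := (map_ne_zero _).mpr h.b0
  have g1 : y0 = 0 := by
    have h5 := f1 x0 y0
    rw [g0, norm_zero] at h5
    have h6 : ‖y0‖ = 0 := by
      have := norm_nonneg y0
      nlinarith
    exact norm_eq_zero.mp h6
  have g2 : x0 + y0 = 0 := by
    have h5 := f2 x0 y0
    rw [g0, mul_zero, norm_zero] at h5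
    have h6 : ‖x0 + y0‖ = 0 := by
      have := norm_nonneg (x0 + y0)
      nlinarith
    exact norm_eq_zero.mp h6
  rw [g1, add_zero] at g2
  rw [g1, g2] at g0
  apply hβ
  linear_combination (-1 : ω.comp) * g0

end nu

end Vale.Agent.P011.H704.C2
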