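import Vale.Agent.P011.H706.C2.Alg
import Vale.Agent.P011.H961.C2SpecN

/-!
Characteristic two: the embedding of a quaternion algebra into a corner of a ring with involution.
-/

set_option linter.unusedSectionVars false

namespace Vale.Agent.P011.H704.C2

open Vale.Agent.P011.H477.C2 (nf)
open Vale.Agent.P011.H706.C2
open Vale.Agent.P011.H961.C2

section alg

variable {F : Type} [Field F] {a b : F}

theorem exists_conj_cj (h2 : (2 : F) = 0) (q : Q2 a b) :
    ∃ t : Q2 a b, t ≠ 0 ∧ t * q = cj q * t := by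
  obtain ⟨p₀, p₁, p₂, p₃⟩ := q
  by_cases h12 : p₂ = 0 ∧ p₃ = 0
  · refine ⟨⟨0, 0, 1, 0⟩, fun h => ?_, ?_⟩
    · have := congrArg QuaternionAlgebra.imJ h
      exact one_ne_zero this
    · obtain ⟨h1, h3⟩ := h12
      subst h1
      subst h3
      ext
      · simp only [cj, QuaternionAlgebra.re_mul]
        ring
      · simp only [cj, QuaternionAlgebra.imI_mul]
        ring
      · simp only [cj, QuaternionAlgebra.imJ_mul]
        ring
      · simp only [cj, QuaternionAlgebra.imK_mul]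
        ring
  · refine ⟨⟨0, 0, p₂, p₃⟩, fun h => h12 ?_, ?_⟩
    · exact ⟨congrArg QuaternionAlgebra.imJ h, congrArg QuaternionAlgebra.imK h⟩
    · ext
      · simp only [cj, QuaternionAlgebra.re_mul]
        linear_combination (b * p₂ ^ 2 + b * p₂ * p₃ + a * b * p₃ ^ 2) * h2
      · simp only [cj, QuaternionAlgebra.imI_mul]
        ring
      · simp only [cj, QuaternionAlgebra.imJ_mul]
        ring
      · simp only [cj, QuaternionAlgebra.imK_mul]
        ring

theorem add_cj (q : Q2 a b) : q + cj q = algebraMap F (Q2 a b) (tr q) := by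
  rw [cj_eq]
  abel

theorem ne_zero_of_mem {Ω : Type*} [Field Ω] (hA : Ani a b) (M : Q2 a b →* Ω) {x : Q2 a b}
    (hx : x ≠ 0) : M x ≠ 0 := by
  intro h
  have hn : nr x ≠ 0 := fun h3 => hx (hA x h3)
  have h3 : M ((unitOf x hn : (Q2 a b)ˣ) : Q2 a b) *
      M (((unitOf x hn)⁻¹ : (Q2 a b)ˣ) : Q2 a b) = 1 := by
    rw [← map_mul, ← Units.val_mul, mul_inv_cancel, Units.val_one, map_one]
  rw [val_unitOf, h, zero_mul] at h3
  exact zero_ne_one h3

/-- A homomorphism to a field is trivial on the elements of norm one. -/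
theorem map_eq_one (h2 : (2 : F) = 0) (hA : Ani a b) {Ω : Type*} [Field Ω] (M : Q2 a b →* Ω)
    {q : Q2 a b} (hq : nr q = 1) : M q = 1 := by
  by_cases hq1 : q = 1
  · rw [hq1, map_one]
  have hneg : ∀ x : Q2 a b, -x = x := by
    intro x
    have h3 : (2 : Q2 a b) = 0 := by
      rw [← map_ofNat (algebraMap F (Q2 a b)) 2, h2, map_zero]
    rw [neg_eq_iff_add_eq_zero, ← two_mul, h3, zero_mul]
  have hy0 : 1 + q ≠ 0 := fun h => hq1 (by rw [← hneg q]; exact neg_eq_of_add_eq_zero_left h)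
  obtain ⟨t, ht0, ht⟩ := exists_conj_cj h2 q
  have e1 : t * (1 + q) = (1 + cj q) * t := by
    rw [mul_add, add_mul, ht, mul_one, one_mul]
  have e2 : q * (1 + cj q) = 1 + q := by
    rw [mul_add, mul_cj, hq, map_one, mul_one, add_comm]
  have e3 : M (1 + q) = M (1 + cj q) := by
    have := congrArg M e1
    rw [map_mul, map_mul, mul_comm] at this
    exact mul_right_cancel₀ (ne_zero_of_mem hA M ht0) this
  have e4 := congrArg M e2
  rw [map_mul, ← e3, mul_eq_right₀ (ne_zero_of_mem hA M hy0)] at e4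
  exact e4

end alg

section emb

variable {k A : Type} [Field k] [Ring A] [StarRing A] [Algebra k A]
    {F : Type} [Field F] [Algebra k F] {ι : F →ₙₐ[k] A} {δ β : F} {i j : A}

/-- The elements `x + y i`. -/
def Lf (ι : F →ₙₐ[k] A) (i : A) (x y : F) : A := ι x + ι y * i

theorem lf_add (x y z w : F) : Lf ι i x y + Lf ι i z w = Lf ι i (x + z) (y + w) := by
  simp only [Lf, map_add, add_mul]
  abel

theorem lf_mul (h : QFrN ι δ β i j) (x y z w : F) :
    Lf ι i x y * Lf ι i z w = Lf ι i (x * z + δ * (y * w)) (x * w + y * z + y * w) := by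
  have e1 : ι y * i * (ι w * i) = ι (y * w) * i + ι (δ * (y * w)) := by
    rw [← mul_assoc, mul_assoc (ι y), ← h.ci, ← mul_assoc, ← map_mul, mul_assoc, h.ii, mul_add,
      ← map_mul, mul_comm δ]
  have e2 : ι y * i * ι z = ι (y * z) * i := by
    rw [mul_assoc, ← h.ci, ← mul_assoc, ← map_mul]
  have e3 : ι x * (ι w * i) = ι (x * w) * i := by
    rw [← mul_assoc, ← map_mul]
  simp only [Lf]
  rw [add_mul, mul_add, mul_add, e1, e2, e3, ← map_mul, map_add, map_add, map_add, add_mul,
    add_mul]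
  abel

theorem j_lf (h : QFrN ι δ β i j) (x y : F) :
    j * Lf ι i x y = Lf ι i (x + y) y * j := by
  have h1 : ι y * ι 1 = ι y := by rw [← map_mul, mul_one]
  simp only [Lf]
  rw [mul_add, ← h.cj, ← mul_assoc, ← h.cj, mul_assoc, h.ji, ← mul_assoc, mul_add, h1, map_add,
    ← add_mul]
  congr 1
  abel

/-- The embedding. -/
def emb (ι : F →ₙₐ[k] A) (i j : A) (q : Q2 δ β) : A :=
  Lf ι i q.re q.imI + Lf ι i q.imJ q.imK * j

theorem emb_eq (q : Q2 δ β) :
    emb ι i j q = ι q.re + ι q.imI * i + ι q.imJ * j + ι q.imK * (i * j) := by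
  simp only [emb, Lf, add_mul, mul_assoc, add_assoc]

theorem emb_mul (h2 : (2 : F) = 0) (h : QFrN ι δ β i j) (q r : Q2 δ β) :
    emb ι i j (q * r) = emb ι i j q * emb ι i j r := by
  have hj : ∀ x y : F, Lf ι i x y * j * j = Lf ι i (β * x) (β * y) := by
    intro x y
    have h3 : ι β = Lf ι i β 0 := by simp [Lf]
    rw [mul_assoc, h.jj, h3, lf_mul h]
    congr 1 <;> ring
  have e1 : emb ι i j q * emb ι i j r =
      Lf ι i q.re q.imI * Lf ι i r.re r.imI +
      Lf ι i q.imJ q.imK * Lf ι i (r.imJ + r.imK) r.imK * j * j +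
      (Lf ι i q.re q.imI * Lf ι i r.imJ r.imK +
      Lf ι i q.imJ q.imK * Lf ι i (r.re + r.imI) r.imI) * j := by
    simp only [emb]
    rw [mul_add, add_mul, add_mul, mul_assoc (Lf ι i q.imJ q.imK), j_lf h, ← mul_assoc,
      mul_assoc (Lf ι i q.imJ q.imK) j, ← mul_assoc j, j_lf h, ← mul_assoc, ← mul_assoc,
      ← mul_assoc, add_mul]
    abel
  rw [e1, lf_mul h, lf_mul h, lf_mul h, lf_mul h, hj, lf_add, lf_add]
  simp only [emb]
  congr 1
  · congr 1
    · rw [QuaternionAlgebra.re_mul]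
      linear_combination (-(δ * q.imI * r.imI)) * h2
    · rw [QuaternionAlgebra.imI_mul]
      linear_combination (-(β * q.imJ * r.imK) - β * q.imK * r.imK) * h2
  · congr 2
    · rw [QuaternionAlgebra.imJ_mul]
      linear_combination (-(δ * q.imI * r.imK)) * h2
    · rw [QuaternionAlgebra.imK_mul]
      linear_combination (-(q.imJ * r.imI) - q.imK * r.imI) * h2

theorem emb_add (q r : Q2 δ β) : emb ι i j (q + r) = emb ι i j q + emb ι i j r := by
  simp only [emb, QuaternionAlgebra.re_add, QuaternionAlgebra.imI_add, QuaternionAlgebra.imJ_add,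
    QuaternionAlgebra.imK_add]
  rw [← lf_add, ← lf_add, add_mul]
  abel

theorem emb_sub (q r : Q2 δ β) : emb ι i j (q - r) = emb ι i j q - emb ι i j r := by
  rw [eq_sub_iff_add_eq, ← emb_add, sub_add_cancel]

theorem emb_one : emb ι i j (1 : Q2 δ β) = ι 1 := by
  simp [emb, Lf]

theorem emb_alg (c : F) : emb ι i j (algebraMap F (Q2 δ β) c) = ι c := by
  simp [emb, Lf, QuaternionAlgebra.algebraMap_eq]

theorem one_emb (h2 : (2 : F) = 0) (h : QFrN ι δ β i j) (q : Q2 δ β) :
    ι 1 * emb ι i j q = emb ι i j q := by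
  rw [← emb_one (ι := ι) (i := i) (j := j) (δ := δ) (β := β), ← emb_mul h2 h, one_mul]

theorem emb_one' (h2 : (2 : F) = 0) (h : QFrN ι δ β i j) (q : Q2 δ β) :
    emb ι i j q * ι 1 = emb ι i j q := by
  rw [← emb_one (ι := ι) (i := i) (j := j) (δ := δ) (β := β), ← emb_mul h2 h, mul_one]

theorem one_one : ι 1 * ι 1 = ι 1 := by rw [← map_mul, mul_one]

theorem neg_F (h2 : (2 : F) = 0) (x : F) : -x = x := by linear_combination (-x) * h2

theorem star_emb (h2 : (2 : F) = 0) (h : QFrN ι δ β i j) (q : Q2 δ β) :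
    star (emb ι i j q) = emb ι i j (cj q) := by
  have h3 : ∀ x y : F, star (Lf ι i x y) = Lf ι i (x + y) y := by
    intro x y
    have h1 : ι y * ι 1 = ι y := by rw [← map_mul, mul_one]
    simp only [Lf]
    rw [star_add, star_mul, h.sym, h.sym, h.si, add_mul, ← h.ci, ← map_mul, one_mul, map_add]
    abel
  rw [emb, star_add, star_mul, h3, h3, h.sj, j_lf h]
  simp only [emb, cj]
  congr 1
  · congr 1
    exact (neg_F h2 _).symm
  · congr 2
    · linear_combination (q.imJ + q.imK) * h2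
    · exact (neg_F h2 _).symm

/-- The monoid homomorphism `1 - e + φ`. -/
def psi (h2 : (2 : F) = 0) (h : QFrN ι δ β i j) : Q2 δ β →* A where
  toFun q := 1 - ι 1 + emb ι i j q
  map_one' := by rw [emb_one, sub_add_cancel]
  map_mul' q r := by
    have e1 := one_one (ι := ι)
    have e2 := one_emb h2 h r
    have e3 := emb_one' h2 h q
    rw [emb_mul h2 h]
    calc 1 - ι 1 + emb ι i j q * emb ι i j r =
        (1 - ι 1 - ι 1 + ι 1 * ι 1) + (emb ι i j r - ι 1 * emb ι i j r) +
          (emb ι i j q - emb ι i j q * ι 1) + emb ι i j q * emb ι i j r := by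
          rw [e1, e2, e3]
          abel
      _ = _ := by
          rw [add_mul, mul_add, mul_add, sub_mul, sub_mul, one_mul, one_mul, mul_sub, mul_sub,
            mul_one, mul_one]
          abel

theorem psi_apply (h2 : (2 : F) = 0) (h : QFrN ι δ β i j) (q : Q2 δ β) :
    psi h2 h q = 1 - ι 1 + emb ι i j q := rfl

theorem star_psi (h2 : (2 : F) = 0) (h : QFrN ι δ β i j) (q : Q2 δ β) :
    star (psi h2 h q) = psi h2 h (cj q) := by
  rw [psi_apply, psi_apply, star_add, star_sub, star_one, h.sym, star_emb h2 h]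

theorem psi_mul_star (h2 : (2 : F) = 0) (h : QFrN ι δ β i j) {q : Q2 δ β} (hq : nr q = 1) :
    psi h2 h q * star (psi h2 h q) = 1 := by
  rw [star_psi, ← map_mul, mul_cj, hq, map_one, map_one]

/-- The embedding is injective. -/
theorem emb_inj (h2 : (2 : F) = 0) (h : QFrN ι δ β i j) (h1 : ι 1 ≠ 0) {q : Q2 δ β}
    (hq : emb ι i j q = 0) : q = 0 := by
  have hι : ∀ t : F, ι t = 0 → t = 0 := by
    intro t ht
    by_contra hcon
    apply h1
    rw [← mul_inv_cancel₀ hcon, map_mul, ht, zero_mul]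
  have key : ∀ q : Q2 δ β, emb ι i j q = 0 → tr q = 0 := by
    intro q hq
    apply hι
    rw [← emb_alg (i := i) (j := j) (δ := δ) (β := β), ← add_cj, emb_add, ← star_emb h2 h, hq,
      star_zero, add_zero]
  have h0 := key q hq
  have h3 := key (q * ⟨0, 1, 0, 0⟩) (by rw [emb_mul h2 h, hq, zero_mul])
  have h4 := key (q * ⟨0, 0, 1, 0⟩) (by rw [emb_mul h2 h, hq, zero_mul])
  have h5 := key (q * ⟨0, 0, 0, 1⟩) (by rw [emb_mul h2 h, hq, zero_mul])
  simp only [tr, QuaternionAlgebra.re_mul, QuaternionAlgebra.imI_mul] at h0 h3 h4 h5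
  have g1 : q.imI = 0 := by linear_combination h0 - q.re * h2
  have g0 : q.re = 0 := by linear_combination h3 - g1 + δ * q.imI * h2
  have g3 : β * q.imK = 0 := by linear_combination h4 - β * q.imJ * h2
  have g2 : β * q.imJ = 0 := by
    linear_combination (-1 : F) * h5 + (β * q.imJ + δ * β * q.imK) * h2
  ext
  · exact g0
  · exact g1
  · exact (mul_eq_zero.mp g2).resolve_left h.b0
  · exact (mul_eq_zero.mp g3).resolve_left h.b0

/-- Anisotropy. -/
theorem ani (h2 : (2 : F) = 0) (h : QFrN ι δ β i j) (h1 : ι 1 ≠ 0)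
    (hA : ∀ x : A, star x * x = 0 → x = 0) : Ani δ β := by
  intro q hq
  refine emb_inj h2 h h1 (hA _ ?_)
  rw [star_emb h2 h, ← emb_mul h2 h, cj_mul, hq, map_zero]
  simp [emb, Lf]

end emb

end Vale.Agent.P011.H704.C2
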